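import Crest.Agent.R141.Close
import Crest.Agent.R141.Law

/-! Finite-valued random variables give finite models (aux file of task R141 Approx). -/

set_option autoImplicit false

namespace Crest.Agent.R141

open Finset Crest.ProbabilityR.Diluted MeasureTheory ProbabilityTheory
open scoped BigOperators

theorem PV.law_apply {α β : Type} [Fintype α] [MeasurableSpace β] (p : PV α) (T : α → β)
    {A : Set β} (hA : MeasurableSet A) :
    p.law T A = ∑ a, ENNReal.ofReal (p.w a) * A.indicator 1 (T a) := by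
  unfold PV.law
  rw [Measure.coe_finsetSum, Finset.sum_apply]
  refine sum_congr rfl fun a _ => ?_
  rw [Measure.smul_apply, Measure.dirac_apply' _ hA, smul_eq_mul]

theorem PV.map_law {α β γ : Type} [Fintype α] [MeasurableSpace β] [MeasurableSpace γ] (p : PV α)
    (T : α → β) {g : β → γ} (hg : Measurable g) :
    (p.law T).map g = p.law fun a => g (T a) := by
  ext A hA
  rw [Measure.map_apply hg hA, PV.law_apply _ _ (hg hA), PV.law_apply _ _ hA]
  rfl

theorem PV.prod_law {α α' β β' : Type} [Fintype α] [Fintype α'] [MeasurableSpace β]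
    [MeasurableSpace β'] (p : PV α) (q : PV α') (T : α → β) (T' : α' → β') :
    (p.law T).prod (q.law T') = (p.prod q).law fun z => (T z.1, T' z.2) := by
  refine Measure.prod_eq fun A B hA hB => ?_
  rw [PV.law_apply _ _ hA, PV.law_apply _ _ hB, PV.law_apply _ _ (hA.prod hB),
    Fintype.sum_prod_type, Finset.sum_mul_sum]
  refine sum_congr rfl fun a _ => sum_congr rfl fun b _ => ?_
  show ENNReal.ofReal (p.w a * q.w b) * _ = _
  rw [ENNReal.ofReal_mul (p.nonneg a)]
  by_cases h1 : T a ∈ A <;> by_cases h2 : T' b ∈ B <;> simp [Set.indicator, h1, h2]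

theorem PV.of_ae_law {α β : Type} [Fintype α] [MeasurableSpace β] (p : PV α) (T : α → β)
    {Q : β → Prop} (hQ : MeasurableSet {b | Q b}) (h : ∀ᵐ b ∂p.law T, Q b) {a : α}
    (ha : 0 < p.w a) : Q (T a) := by
  by_contra hc
  have hQ' : MeasurableSet {b | ¬ Q b} := hQ.compl
  rw [ae_iff, PV.law_apply _ _ hQ', Finset.sum_eq_zero_iff] at h
  have := h a (mem_univ a)
  rw [Set.indicator_of_mem (by exact hc)] at this
  simp only [Pi.one_apply, mul_one, ENNReal.ofReal_eq_zero] at this
  linarith

/-- a probability measure carried by a finite set is the law of a positive probability vector -/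
theorem exists_PV {β : Type} [MeasurableSpace β] [MeasurableSingletonClass β] (m : Measure β)
    [IsProbabilityMeasure m] {S : Set β} (hS : S.Finite) (h : ∀ᵐ x ∂m, x ∈ S) :
    ∃ (C : Type) (_ : Fintype C) (pv : PV C) (v : C → β), (∀ c, 0 < pv.w c) ∧ pv.law v = m := by
  classical
  set S' : Finset β := hS.toFinset.filter fun x => m {x} ≠ 0 with hS'
  have key : ∀ A : Set β, MeasurableSet A → m A = ∑ x ∈ S', m {x} * A.indicator 1 x := by
    intro A hA
    have h1 : m A = m (A ∩ S) := by
      refine measure_congr ?_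
      filter_upwards [h] with x hx
      exact propext ⟨fun h => ⟨h, hx⟩, fun h => h.1⟩
    have h2 : A ∩ S = ((hS.toFinset.filter fun x => x ∈ A : Finset β) : Set β) := by
      ext x
      simp [and_comm]
    rw [h1, h2, ← sum_measure_singleton, hS', sum_filter, sum_filter]
    refine sum_congr rfl fun x _ => ?_
    by_cases h1 : x ∈ A <;> by_cases h2 : m {x} = 0 <;> simp [Set.indicator, h1, h2]
  refine ⟨S', inferInstance, ⟨fun x => m.real {x.1}, fun x => measureReal_nonneg, ?_⟩,
    Subtype.val, fun c => ?_, ?_⟩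
  · have h1 := key Set.univ MeasurableSet.univ
    simp only [measure_univ, Set.indicator_univ, Pi.one_apply, mul_one] at h1
    rw [Finset.sum_coe_sort S' (fun x => m.real {x})]
    simp only [Measure.real]
    rw [← ENNReal.toReal_sum (fun x _ => measure_ne_top _ _), ← h1, ENNReal.toReal_one]
  · have := (mem_filter.1 c.2).2
    exact ENNReal.toReal_pos this (measure_ne_top _ _)
  · ext A hA
    rw [PV.law_apply _ _ hA, key A hA]
    simp only [Measure.real, ENNReal.ofReal_toReal (measure_ne_top _ _)]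
    exact Finset.sum_coe_sort S' (fun x => m {x} * A.indicator 1 x)

theorem exists_PV_map {Ω β : Type} [MeasurableSpace Ω] [MeasurableSpace β]
    [MeasurableSingletonClass β] (P : Measure Ω) [IsProbabilityMeasure P] {g : Ω → β}
    (hg : Measurable g) (hS : (Set.range g).Finite) :
    ∃ (C : Type) (_ : Fintype C) (pv : PV C) (v : C → β), (∀ c, 0 < pv.w c) ∧
      pv.law v = P.map g := by
  have : IsProbabilityMeasure (P.map g) := Measure.isProbabilityMeasure_map hg.aemeasurable
  refine exists_PV (P.map g) hS ?_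
  exact (ae_map_iff (p := fun x => x ∈ Set.range g) hg.aemeasurable hS.measurableSet).2
    (Filter.Eventually.of_forall fun ω => Set.mem_range_self ω)

/-- finitely valued independent factors define a finite model -/
theorem finite_model {p : ℕ} (hp : Even p) (l₀ : Fin p) {Ω : Type} [MeasurableSpace Ω]
    (P : Measure Ω) [IsProbabilityMeasure P] {c : Ω → ℝ} {g : Fin p → Ω → Bool → ℝ}
    (hc : Measurable c) (hg : ∀ l, Measurable (g l)) (hcf : (Set.range c).Finite)
    (hgf : (Set.range (g l₀)).Finite) (hind : iIndepFun g P)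
    (hid : ∀ l, P.map (g l) = P.map (g l₀)) (hcg : IndepFun c (fun ω l => g l ω) P)
    (hlt : ∀ᵐ ω ∂P, ∀ s : Fin p → Bool, |c ω * ∏ l, g l ω (s l)| < 1)
    (hmom : ∀ n : ℕ, 1 ≤ n → 0 ≤ ∫ ω, c ω ^ n ∂P)
    {H : Type} [Fintype H] (pH : PV H) (hv : H → ℝ) :
    ∃ M : FM p, M.Pos ∧
      P.map (fun ω (s : Fin p → Bool) => Real.log (1 - c ω * ∏ l, g l ω (s l))) = M.law ∧
      M.flaw = pH.law hv := by
  classical
  obtain ⟨C, _, pC, vC, hCpos, hC⟩ := exists_PV_map P hc hcf
  obtain ⟨Φ, _, pΦ, vΦ, hΦpos, hΦ⟩ := exists_PV_map P (hg l₀) hgf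
  have hG : Measurable fun ω l => g l ω := measurable_pi_lambda _ hg
  have hjoint : P.map (fun ω => (c ω, fun l => g l ω)) =
      (pC.prod (pΦ.pi (Fin p))).law fun θ => (vC θ.1, fun l => vΦ (θ.2 l)) := by
    rw [hcg.map_prod_eq_prod_map_map hc.aemeasurable hG.aemeasurable,
      hind.map_fun_eq_pi_map fun l => (hg l).aemeasurable, ← hC]
    simp only [hid, ← hΦ]
    rw [PV.pi_law, PV.prod_law]
  have hQ : MeasurableSet {z : ℝ × (Fin p → Bool → ℝ) |
      ∀ s : Fin p → Bool, |z.1 * ∏ l, z.2 l (s l)| < 1} := by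
    rw [Set.ofPred_forall]
    refine MeasurableSet.iInter fun s => measurableSet_lt ?_ measurable_const
    fun_prop
  have hlt' : ∀ (a : C) (f : Fin p → Φ) (s : Fin p → Bool), |vC a * ∏ l, vΦ (f l) (s l)| < 1 := by
    intro a f
    have h1 : ∀ᵐ z ∂P.map (fun ω => (c ω, fun l => g l ω)),
        ∀ s : Fin p → Bool, |z.1 * ∏ l, z.2 l (s l)| < 1 := by
      rw [ae_map_iff (hc.prodMk hG).aemeasurable hQ]
      exact hlt
    rw [hjoint] at h1
    refine PV.of_ae_law _ _ hQ h1 (a := (a, f)) ?_
    show 0 < pC.w a * ∏ l, pΦ.w (f l)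
    exact mul_pos (hCpos a) (prod_pos fun l _ => hΦpos _)
  refine ⟨{ C := C, Φ := Φ, H := H, pC := pC, pΦ := pΦ, pH := pH, c := vC, φ := vΦ, hv := hv
            lt_one := hlt' }, ⟨fun n hn => ?_, Or.inl hp⟩, ?_, rfl⟩
  · have := PV.integral_law pC vC fun x => x ^ n
    rw [hC, integral_map hc.aemeasurable (by fun_prop)] at this
    exact this ▸ hmom n hn
  · have hF : Measurable fun (z : ℝ × (Fin p → Bool → ℝ)) (s : Fin p → Bool) =>
        Real.log (1 - z.1 * ∏ l, z.2 l (s l)) := by
      refine measurable_pi_lambda _ fun s => Real.measurable_log.comp ?_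
      fun_prop
    have h1 := congrArg (Measure.map fun (z : ℝ × (Fin p → Bool → ℝ)) (s : Fin p → Bool) =>
        Real.log (1 - z.1 * ∏ l, z.2 l (s l))) hjoint
    rw [Measure.map_map hF (hc.prodMk hG), PV.map_law _ _ hF] at h1
    exact h1

end Crest.Agent.R141
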