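import Mathlib

/-! Rounding of real numbers to finite sets (aux file of task R141 Approx). -/

set_option autoImplicit false

namespace Crest.Agent.R141

open Filter Topology

/-- truncated rounding of the positive part -/
noncomputable def rpos (n : ℕ) (x : ℝ) : ℝ := (⌊((n : ℝ) + 1) * min (max x 0) n⌋₊ : ℝ) / (n + 1)

theorem measurable_rpos (n : ℕ) : Measurable (rpos n) := by
  unfold rpos
  refine Measurable.div_const ?_ _
  refine (measurable_from_top (f := fun k : ℕ => (k : ℝ))).comp (Measurable.nat_floor ?_)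
  fun_prop

theorem rpos_nonneg (n : ℕ) (x : ℝ) : 0 ≤ rpos n x := by
  unfold rpos; positivity

theorem rpos_le_min (n : ℕ) (x : ℝ) : rpos n x ≤ min (max x 0) n := by
  unfold rpos
  have h0 : (0 : ℝ) ≤ min (max x 0) n := le_min (le_max_right _ _) (Nat.cast_nonneg _)
  rw [div_le_iff₀ (by positivity), mul_comm]
  exact Nat.floor_le (by positivity)

theorem min_le_rpos (n : ℕ) (x : ℝ) : min (max x 0) n - 1 / ((n : ℝ) + 1) ≤ rpos n x := by
  unfold rpos
  have h := Nat.lt_floor_add_one (((n : ℝ) + 1) * min (max x 0) n)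
  rw [le_div_iff₀ (by positivity), sub_mul, one_div, inv_mul_cancel₀ (by positivity)]
  linarith

theorem finite_range_rpos (n : ℕ) : (Set.range (rpos n)).Finite := by
  refine ((Set.finite_Iic ((n + 1) * n)).image fun k : ℕ => (k : ℝ) / (n + 1)).subset ?_
  rintro _ ⟨x, rfl⟩
  refine ⟨_, ?_, rfl⟩
  refine Nat.floor_le_of_le ?_
  push_cast
  exact mul_le_mul_of_nonneg_left (min_le_right _ _) (by positivity)

/-- truncation and rounding towards zero -/
noncomputable def rzero (n : ℕ) (x : ℝ) : ℝ := rpos n x - rpos n (-x)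

theorem measurable_rzero (n : ℕ) : Measurable (rzero n) :=
  (measurable_rpos n).sub ((measurable_rpos n).comp measurable_neg)

theorem finite_range_rzero (n : ℕ) : (Set.range (rzero n)).Finite := by
  refine (((finite_range_rpos n).prod (finite_range_rpos n)).image fun z => z.1 - z.2).subset ?_
  rintro _ ⟨x, rfl⟩
  exact ⟨(rpos n x, rpos n (-x)), ⟨⟨x, rfl⟩, ⟨-x, rfl⟩⟩, rfl⟩

theorem abs_rzero_le (n : ℕ) (x : ℝ) : |rzero n x| ≤ |x| := by
  unfold rzero
  have h1 := (rpos_le_min n x).trans (min_le_left _ _)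
  have h2 := (rpos_le_min n (-x)).trans (min_le_left _ _)
  have h3 := rpos_nonneg n x
  have h4 := rpos_nonneg n (-x)
  have h5 : max x 0 ≤ |x| := max_le (le_abs_self x) (abs_nonneg x)
  have h6 : max (-x) 0 ≤ |x| := max_le (neg_le_abs x) (abs_nonneg x)
  rw [abs_le]
  constructor <;> linarith

theorem abs_rzero_le_nat (n : ℕ) (x : ℝ) : |rzero n x| ≤ n := by
  unfold rzero
  have h1 := (rpos_le_min n x).trans (min_le_right _ _)
  have h2 := (rpos_le_min n (-x)).trans (min_le_right _ _)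
  have h3 := rpos_nonneg n x
  have h4 := rpos_nonneg n (-x)
  rw [abs_le]
  constructor <;> linarith

theorem abs_rzero_sub_le (n : ℕ) {x : ℝ} (hx : |x| ≤ n) : |rzero n x - x| ≤ 1 / ((n : ℝ) + 1) := by
  unfold rzero
  have h5 : max x 0 ≤ |x| := max_le (le_abs_self x) (abs_nonneg x)
  have h6 : max (-x) 0 ≤ |x| := max_le (neg_le_abs x) (abs_nonneg x)
  have h1 := rpos_le_min n x
  have h2 := rpos_le_min n (-x)
  have h3 := min_le_rpos n x
  have h4 := min_le_rpos n (-x)
  rw [min_eq_left (h5.trans hx)] at h1 h3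
  rw [min_eq_left (h6.trans hx)] at h2 h4
  have h7 : max x 0 - max (-x) 0 = x := max_zero_sub_max_neg_zero_eq_self x
  rw [abs_le]
  constructor <;> linarith

theorem tendsto_rzero (x : ℝ) : Tendsto (fun n => rzero n x) atTop (𝓝 x) := by
  rw [tendsto_iff_norm_sub_tendsto_zero]
  refine squeeze_zero' (Eventually.of_forall fun _ => norm_nonneg _) ?_
    tendsto_one_div_add_atTop_nhds_zero_nat
  filter_upwards [tendsto_natCast_atTop_atTop.eventually_ge_atTop |x|] with n hn
  exact abs_rzero_sub_le n hn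

/-- clamping to `[-B, B]` and rounding up -/
noncomputable def rup (B : ℝ) (N : ℕ) (x : ℝ) : ℝ :=
  (⌈((N : ℝ) + 1) * max (-B) (min B x)⌉ : ℝ) / (N + 1)

theorem measurable_rup (B : ℝ) (N : ℕ) : Measurable (rup B N) := by
  unfold rup
  refine Measurable.div_const ?_ _
  refine (measurable_from_top (f := fun k : ℤ => (k : ℝ))).comp (Measurable.ceil ?_)
  fun_prop

theorem finite_range_rup (B : ℝ) (N : ℕ) : (Set.range (rup B N)).Finite := by
  refine ((Set.finite_Icc ⌈((N : ℝ) + 1) * (-B)⌉ ⌈((N : ℝ) + 1) * max (-B) B⌉).image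
    fun k : ℤ => (k : ℝ) / (N + 1)).subset ?_
  rintro _ ⟨x, rfl⟩
  refine ⟨_, ⟨Int.ceil_mono ?_, Int.ceil_mono ?_⟩, rfl⟩
  · exact mul_le_mul_of_nonneg_left (le_max_left _ _) (by positivity)
  · exact mul_le_mul_of_nonneg_left (max_le_max le_rfl (min_le_left _ _)) (by positivity)

theorem rup_spec {B : ℝ} (N : ℕ) {x : ℝ} (hx : |x| ≤ B) :
    x ≤ rup B N x ∧ rup B N x ≤ x + 1 / ((N : ℝ) + 1) := by
  unfold rup
  rw [abs_le] at hx
  rw [min_eq_right hx.2, max_eq_right hx.1]
  have h1 := Int.le_ceil (((N : ℝ) + 1) * x)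
  have h2 := Int.ceil_lt_add_one (((N : ℝ) + 1) * x)
  constructor
  · rw [le_div_iff₀ (by positivity)]; linarith
  · rw [div_le_iff₀ (by positivity), add_mul x, one_div, inv_mul_cancel₀ (by positivity)]
    linarith

/-- damping contracts differences of logarithms -/
theorem abs_log_damp_le {ρ t t' : ℝ} (h0 : 0 ≤ ρ) (h1 : ρ ≤ 1) (ht : |t| < 1) (ht' : |t'| < 1) :
    |Real.log (1 + ρ * t) - Real.log (1 + ρ * t')| ≤ |Real.log (1 + t) - Real.log (1 + t')| := by
  have pos : ∀ u : ℝ, |u| < 1 → 0 < 1 + u ∧ 0 < 1 + ρ * u := by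
    intro u hu
    rw [abs_lt] at hu
    refine ⟨by linarith, ?_⟩
    rcases le_total 0 u with h | h
    · positivity
    · nlinarith
  wlog h : t' ≤ t generalizing t t'
  · rw [abs_sub_comm, abs_sub_comm (Real.log (1 + t))]
    exact this ht' ht (le_of_not_ge h)
  obtain ⟨a1, a2⟩ := pos t ht
  obtain ⟨b1, b2⟩ := pos t' ht'
  have e1 : Real.log (1 + ρ * t') ≤ Real.log (1 + ρ * t) :=
    Real.log_le_log b2 (by nlinarith)
  have e2 : Real.log (1 + t') ≤ Real.log (1 + t) := Real.log_le_log b1 (by linarith)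
  rw [abs_of_nonneg (sub_nonneg.2 e1), abs_of_nonneg (sub_nonneg.2 e2)]
  have e3 : Real.log ((1 + ρ * t) * (1 + t')) ≤ Real.log ((1 + t) * (1 + ρ * t')) :=
    Real.log_le_log (mul_pos a2 b1) (by nlinarith)
  rw [Real.log_mul a2.ne' b1.ne', Real.log_mul a1.ne' b2.ne'] at e3
  linarith

theorem abs_log_one_sub_le {r u : ℝ} (hr : r < 1) (hu : |u| ≤ r) :
    |Real.log (1 - u)| ≤ |Real.log (1 - r)| + |Real.log (1 + r)| := by
  rw [abs_le] at hu
  have e1 : Real.log (1 - r) ≤ Real.log (1 - u) := Real.log_le_log (by linarith) (by linarith)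
  have e2 : Real.log (1 - u) ≤ Real.log (1 + r) := Real.log_le_log (by linarith) (by linarith)
  have := neg_abs_le (Real.log (1 - r))
  have := le_abs_self (Real.log (1 + r))
  have := abs_nonneg (Real.log (1 - r))
  have := abs_nonneg (Real.log (1 + r))
  rw [abs_le]
  constructor <;> linarith

end Crest.Agent.R141
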